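import Mathlib

namespace Vale.Agent.Lib.P338.WO

lemma arithT_log_three : Real.log 3 ≤ 4 / 3 := by
  rw [Real.log_le_iff_le_exp (by norm_num)]
  have h := Real.quadratic_le_exp_of_nonneg (x := 4 / 3) (by norm_num)
  nlinarith [h]

lemma three_T (c : ℝ) (hc : 0 < c) (n S T : ℕ) (hS : 1 ≤ S) (hT : 1 ≤ T)
    (h : c * (n : ℝ) ^ 2 ≤ ((3 * T : ℕ) : ℝ) * ((S : ℝ) + Real.log ((3 * T : ℕ) : ℝ))) :
    c / 7 * (n : ℝ) ^ 2 ≤ (T : ℝ) * ((S : ℝ) + Real.log T) := by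
  have hS' : (1 : ℝ) ≤ S := by exact_mod_cast hS
  have hT' : (1 : ℝ) ≤ T := by exact_mod_cast hT
  have hlT : 0 ≤ Real.log T := Real.log_nonneg hT'
  have hcast : ((3 * T : ℕ) : ℝ) = 3 * (T : ℝ) := by push_cast; ring
  rw [hcast, Real.log_mul (by norm_num) (by positivity)] at h
  have h3 := arithT_log_three
  have key : 3 * (T : ℝ) * ((S : ℝ) + (Real.log 3 + Real.log T)) ≤
      7 * ((T : ℝ) * ((S : ℝ) + Real.log T)) := by
    have : 3 * ((S : ℝ) + (Real.log 3 + Real.log T)) ≤ 7 * ((S : ℝ) + Real.log T) := by linarith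
    nlinarith [this, hT']
  linarith [h, key]

end Vale.Agent.Lib.P338.WO
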