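import Mathlib
import Vale.Agent.Lib.P338.Model

/-!
# P338 / WO: multitape machines with a write-only (two-way) output tape
-/

namespace Vale.Agent.Lib.P338.WO

open Vale.Agent.Lib.P338

/-- Tape `0` is the input tape, tape `1` the output tape, and the output tape is write-only: the
transition taken does not depend on the symbol scanned on tape `1`.  The head of tape `1` may move
in both directions and overwrite.  All other tapes are unrestricted. -/
def WriteOnlyK {k : ℕ} (M : Machine (k + 2)) : Prop :=
  M.inp = 0 ∧ M.out = 1 ∧
  ∀ (q : M.Q) (a a' : Fin (k + 2) → M.Γ), (∀ i, i ≠ 1 → a i = a' i) → M.δ q a = M.δ q a'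

end Vale.Agent.Lib.P338.WO
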