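import Mathlib
import Vale.Agent.Lib.P338.WO.WriteOnly
import Vale.Agent.Lib.P338.OW.Basic

/-!
# P338 / WO: definitions for the two-tape core
-/

namespace Vale.Agent.Lib.P338.WO

open Vale.Agent.Lib.P338 Vale.Agent.Lib.P338.OW

/-- Two tapes: input tape `0`, write-only output tape `1`. -/
def WriteOnly2 (M : Machine 2) : Prop :=
  M.inp = 0 ∧ M.out = 1 ∧
  ∀ (q : M.Q) (a a' : Fin 2 → M.Γ), a 0 = a' 0 → M.δ q a = M.δ q a'

variable (M : Machine 2)

/-- For each cell of tape `1`: was its last write made while the head of tape `0` was in `S`? -/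
def sown (S : ℕ → Prop) [DecidablePred S] : ℕ → Cfg M → (ℕ → Bool) → (ℕ → Bool)
  | 0, _, o => o
  | t + 1, c, o =>
    match step M c with
    | none => o
    | some c' => sown S t c' (Function.update o (c.head 1) (decide (S (c.head 0))))

/-- The places `p < N` where `o p` and `o (p + 1)` differ. -/
def brk (N : ℕ) (o : ℕ → Bool) : Finset ℕ := (Finset.range N).filter fun p => o p ≠ o (p + 1)

/-- The function with value `b0` at `0` that changes exactly at the places in `B`. -/
def recon (b0 : Bool) (B : Finset ℕ) (p : ℕ) : Bool :=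
  xor b0 (decide (Odd ((B.filter fun x => x < p).card)))

/-- `ω` on the cells where `o` is true, blank elsewhere. -/
def omask (o : ℕ → Bool) (ω : ℕ → M.Γ) : ℕ → M.Γ :=
  fun p => if o p = true then ω p else M.sym Sym.blank

/-- The last-writer function of the run on `a 0^(n-m) # 0^(n-m) b` for the boundary `β`. -/
noncomputable def OWN (n m β : ℕ) (a b : Fin m → Bool) : ℕ → Bool :=
  sown M (fun j => β ≤ j) (tim M n m a b) (ini M n m a b) (fun _ => false)

end Vale.Agent.Lib.P338.WO
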