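import Mathlib
import Vale.Agent.Lib.P338.WO.Defs

namespace Vale.Agent.Lib.P338.WO

lemma brkupd_mem_of_ne (N : ℕ) (o : ℕ → Bool) (h : ℕ) (σ : Bool) (p : ℕ)
    (hp : p ∈ brk N (Function.update o h σ)) (h1 : p ≠ h) (h2 : p + 1 ≠ h) : p ∈ brk N o := by
  unfold brk at hp ⊢
  rw [Finset.mem_filter] at hp ⊢
  rw [Function.update_of_ne h1, Function.update_of_ne h2] at hp
  exact hp

/-- Changing one value creates at most two new places of change. -/
lemma brk_update_le (N : ℕ) (o : ℕ → Bool) (h : ℕ) (σ : Bool) :
    (brk N (Function.update o h σ)).card ≤ (brk N o).card + 2 := by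
  have hsub : brk N (Function.update o h σ) ⊆ insert h (insert (h - 1) (brk N o)) := by
    intro p hp
    by_cases h1 : p = h
    · simp [h1]
    by_cases h2 : p + 1 = h
    · have h3 : p = h - 1 := by omega
      simp [h3]
    · simp [brkupd_mem_of_ne N o h σ p hp h1 h2]
  calc (brk N (Function.update o h σ)).card
      ≤ (insert h (insert (h - 1) (brk N o))).card := Finset.card_le_card hsub
    _ ≤ (insert (h - 1) (brk N o)).card + 1 := Finset.card_insert_le _ _
    _ ≤ ((brk N o).card + 1) + 1 := Nat.add_le_add_right (Finset.card_insert_le _ _) 1
    _ = (brk N o).card + 2 := by ring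

/-- Setting the value at `h` to the value `σ` of a neighbour (or of `h` itself) creates no new
place of change. -/
lemma brk_update_adj (N : ℕ) (o : ℕ → Bool) (h h' : ℕ) (σ : Bool)
    (hN : h < N)
    (hadj : h' = h ∨ h' + 1 = h ∨ h' = h + 1) (ho : o h' = σ) :
    (brk N (Function.update o h σ)).card ≤ (brk N o).card := by
  by_cases hσ : o h = σ
  · rw [← hσ, Function.update_eq_self]
  rcases hadj with rfl | hadj | hadj
  · exact absurd ho hσ
  · -- h' + 1 = h
    subst hadj
    have hmem : h' ∈ brk N o := by
      unfold brk
      rw [Finset.mem_filter, Finset.mem_range]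
      refine ⟨by omega, ?_⟩
      rw [ho]
      exact fun e => hσ e.symm
    have hsub : brk N (Function.update o (h' + 1) σ) ⊆ insert (h' + 1) ((brk N o).erase h') := by
      intro p hp
      by_cases h1 : p = h' + 1
      · simp [h1]
      by_cases h2 : p = h'
      · exfalso
        subst h2
        unfold brk at hp
        rw [Finset.mem_filter] at hp
        rw [Function.update_of_ne h1, Function.update_self, ho] at hp
        exact hp.2 rfl
      · have h3 : p + 1 ≠ h' + 1 := by omega
        have h4 := brkupd_mem_of_ne N o (h' + 1) σ p hp h1 h3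
        simp [h4, h2]
    calc (brk N (Function.update o (h' + 1) σ)).card
        ≤ (insert (h' + 1) ((brk N o).erase h')).card := Finset.card_le_card hsub
      _ ≤ ((brk N o).erase h').card + 1 := Finset.card_insert_le _ _
      _ = (brk N o).card := by
          rw [Finset.card_erase_of_mem hmem]
          have : 0 < (brk N o).card := Finset.card_pos.2 ⟨h', hmem⟩
          omega
  · -- h' = h + 1
    subst hadj
    have hmem : h ∈ brk N o := by
      unfold brk
      rw [Finset.mem_filter, Finset.mem_range]
      refine ⟨hN, ?_⟩
      rw [ho]
      exact hσ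
    have hsub : brk N (Function.update o h σ) ⊆ insert (h - 1) ((brk N o).erase h) := by
      intro p hp
      by_cases h1 : p = h
      · exfalso
        subst h1
        unfold brk at hp
        rw [Finset.mem_filter] at hp
        have h5 : p + 1 ≠ p := by omega
        rw [Function.update_self, Function.update_of_ne h5, ho] at hp
        exact hp.2 rfl
      by_cases h2 : p + 1 = h
      · have h3 : p = h - 1 := by omega
        simp [h3]
      · have h4 := brkupd_mem_of_ne N o h σ p hp h1 h2
        simp [h4, h1]
    calc (brk N (Function.update o h σ)).card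
        ≤ (insert (h - 1) ((brk N o).erase h)).card := Finset.card_le_card hsub
      _ ≤ ((brk N o).erase h).card + 1 := Finset.card_insert_le _ _
      _ = (brk N o).card := by
          rw [Finset.card_erase_of_mem hmem]
          have : 0 < (brk N o).card := Finset.card_pos.2 ⟨h, hmem⟩
          omega

end Vale.Agent.Lib.P338.WO
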