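import Mathlib
import Vale.Agent.Lib.P338.WO.Defs
import Vale.Agent.Lib.P338.OW.Short

namespace Vale.Agent.Lib.P338.WO

open Vale.Agent.Lib.P338 Vale.Agent.Lib.P338.OW

variable {M : Machine 2}

lemma head1_step_le {c c' : Cfg M} (h : step M c = some c') :
    c'.head 1 ≤ c.head 1 + 1 ∧ c.head 1 ≤ c'.head 1 + 1 := by
  unfold step at h
  rw [Option.map_eq_some_iff] at h
  obtain ⟨r, _, hr⟩ := h
  subst hr
  simp only
  generalize (r.2 1).2 = mv
  cases mv <;> simp only [Move.apply] <;> omega

lemma senters_pos_le' (S : ℕ → Prop) [DecidablePred S] :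
    ∀ (t : ℕ) (c : Cfg M), ∀ e ∈ senters M S t c, e.2 ≤ c.head 1 + t := by
  intro t
  induction t with
  | zero => intro c e he; simp [senters] at he
  | succ t ih =>
    intro c e he
    cases hs : step M c with
    | none => simp [senters, hs] at he
    | some c₁ =>
      simp only [senters, hs, List.mem_append] at he
      have h1 := head1_step_le hs
      rcases he with he | he
      · split_ifs at he with hc
        · simp only [List.mem_singleton] at he
          subst he
          simp only
          omega
        · simp at he
      · have := ih c₁ e he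
        omega

lemma ER_pos_le' {n m β : ℕ} (a b : Fin m → Bool) :
    ∀ e ∈ ER M n m β a b, e.2 ≤ worstTime M n := by
  intro e he
  have h := senters_pos_le' (fun j => β ≤ j) (tim M n m a b) (ini M n m a b) e he
  have h0 : (ini M n m a b).head 1 = 0 := rfl
  have htw := tim_le_worstTime (M := M) n m a b
  omega

lemma EL_pos_le' {n m β : ℕ} (a b : Fin m → Bool) :
    ∀ e ∈ EL M n m β a b, e.2 ≤ worstTime M n := by
  intro e he
  have h := senters_pos_le' (fun j => ¬ β ≤ j) (tim M n m a b) (ini M n m a b) e he
  have h0 : (ini M n m a b).head 1 = 0 := rfl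
  have htw := tim_le_worstTime (M := M) n m a b
  omega

end Vale.Agent.Lib.P338.WO
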