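import Mathlib
import Vale.Agent.Lib.P338.WO.BrkUpd
import Vale.Agent.Lib.P338.WO.Pos

namespace Vale.Agent.Lib.P338.WO

open Vale.Agent.Lib.P338 Vale.Agent.Lib.P338.OW

variable {M : Machine 2}

lemma brk_le_aux (S : ℕ → Prop) [DecidablePred S] (N : ℕ) : ∀ (t : ℕ) (c : Cfg M) (o : ℕ → Bool),
    c.head 1 + t ≤ N →
    ((brk N (sown M S t c o)).card ≤ (brk N o).card + 2 +
      2 * ((senters M S t c).length + (senters M (fun j => ¬ S j) t c).length)) ∧
    ((∃ h', (h' = c.head 1 ∨ h' + 1 = c.head 1 ∨ h' = c.head 1 + 1) ∧
        o h' = decide (S (c.head 0))) →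
      (brk N (sown M S t c o)).card ≤ (brk N o).card +
        2 * ((senters M S t c).length + (senters M (fun j => ¬ S j) t c).length)) := by
  intro t
  induction t with
  | zero =>
    intro c o _
    refine ⟨?_, fun _ => ?_⟩
    · simp only [sown]; omega
    · simp only [sown]; omega
  | succ t ih =>
    intro c o hN
    cases hs : step M c with
    | none =>
      refine ⟨?_, fun _ => ?_⟩
      · simp only [sown, hs]; omega
      · simp only [sown, hs]; omega
    | some c1 =>
      have hh := head1_step_le hs
      have hlt : c.head 1 < N := by omega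
      have hN1 : c1.head 1 + t ≤ N := by omega
      obtain ⟨P1, P2⟩ := ih c1 (Function.update o (c.head 1) (decide (S (c.head 0)))) hN1
      have e1 : sown M S (t + 1) c o
          = sown M S t c1 (Function.update o (c.head 1) (decide (S (c.head 0)))) := by
        simp only [sown, hs]
      have hup := brk_update_le N o (c.head 1) (decide (S (c.head 0)))
      have hadj : (c.head 1 = c1.head 1 ∨ c.head 1 + 1 = c1.head 1 ∨ c.head 1 = c1.head 1 + 1) := by
        omega
      have ho1h : (Function.update o (c.head 1) (decide (S (c.head 0)))) (c.head 1)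
          = decide (S (c.head 0)) := Function.update_self _ _ _
      obtain ⟨x1, hx1, eL1⟩ : ∃ x1 : ℕ, x1 = (if ¬ S (c.head 0) ∧ S (c1.head 0) then 1 else 0) ∧
          (senters M S (t + 1) c).length = x1 + (senters M S t c1).length := by
        refine ⟨_, rfl, ?_⟩
        simp only [senters, hs, List.length_append]
        split_ifs <;> simp
      obtain ⟨x2, hx2, eL2⟩ : ∃ x2 : ℕ,
          x2 = (if ¬ ¬ S (c.head 0) ∧ ¬ S (c1.head 0) then 1 else 0) ∧
          (senters M (fun j => ¬ S j) (t + 1) c).length
            = x2 + (senters M (fun j => ¬ S j) t c1).length := by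
        refine ⟨_, rfl, ?_⟩
        simp only [senters, hs, List.length_append]
        split_ifs <;> simp
      have d1 : x1 + x2 = (if decide (S (c1.head 0)) = decide (S (c.head 0)) then 0 else 1) := by
        rw [hx1, hx2]
        by_cases h0 : S (c.head 0) <;> by_cases h1 : S (c1.head 0) <;> simp [h0, h1]
      rw [e1, eL1, eL2]
      refine ⟨?_, fun hex => ?_⟩
      · by_cases hsame : decide (S (c1.head 0)) = decide (S (c.head 0))
        · have h3 := P2 ⟨c.head 1, hadj, by rw [ho1h, hsame]⟩
          rw [if_pos hsame] at d1
          omega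
        · rw [if_neg hsame] at d1
          omega
      · obtain ⟨h', hadj', ho'⟩ := hex
        have hup2 := brk_update_adj N o (c.head 1) h' (decide (S (c.head 0))) hlt hadj' ho'
        by_cases hsame : decide (S (c1.head 0)) = decide (S (c.head 0))
        · have h3 := P2 ⟨c.head 1, hadj, by rw [ho1h, hsame]⟩
          rw [if_pos hsame] at d1
          omega
        · rw [if_neg hsame] at d1
          omega

lemma brk_OWN_le (n m β : ℕ) (a b : Fin m → Bool) :
    (brk (worstTime M n + 1) (OWN M n m β a b)).card
      ≤ 2 + 2 * ((ER M n m β a b).length + (EL M n m β a b).length) := by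
  have htw : tim M n m a b ≤ worstTime M n := haltTime_le_worstTime M (xOf n m a) (yOf n m b)
  have h0 : (ini M n m a b).head 1 = 0 := rfl
  have h := (brk_le_aux (M := M) (fun j => β ≤ j) (worstTime M n + 1) (tim M n m a b)
    (ini M n m a b) (fun _ => false) (by rw [h0]; omega)).1
  have hb : (brk (worstTime M n + 1) (fun _ => false)).card = 0 := by
    simp [brk]
  rw [hb] at h
  unfold OWN ER EL
  omega

end Vale.Agent.Lib.P338.WO
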