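import Mathlib
import Vale.Agent.Lib.P338.WO.Defs
import Vale.Agent.Lib.P338.OW.Num

namespace Vale.Agent.Lib.P338.WO

open Vale.Agent.Lib.P338 Vale.Agent.Lib.P338.OW

variable {M : Machine 2}

lemma num_own {n z : ℕ} (hz : z < 2 ^ (2 * n)) {tp ωR ωL : ℕ → M.Γ} {o : ℕ → Bool}
    (h : ∀ p, tp p = if o p = true then ωR p else ωL p)
    (htp : ∀ i, i < 2 * n → tp i = M.sym (bitSym (binDigit (2 * n) z i))) :
    z = num M n (omask M o ωR) + num M n (omask M (fun p => !(o p)) ωL) := by
  apply num_merge hz (tp := tp) _ htp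
  intro p
  have hp := h p
  have e1 : omask M o ωR p = if o p = true then ωR p else M.sym Sym.blank := rfl
  have e2 : omask M (fun p => !(o p)) ωL p
      = if (!(o p)) = true then ωL p else M.sym Sym.blank := rfl
  rw [e1, e2]
  cases ho : o p
  · rw [ho] at hp
    rw [if_neg (by simp)] at hp
    rw [if_neg (by simp), if_pos (by simp)]
    exact ⟨Or.inl rfl, fun _ => hp, fun hne => absurd rfl hne⟩
  · rw [ho] at hp
    rw [if_pos rfl] at hp
    rw [if_pos rfl, if_neg (by simp)]
    exact ⟨Or.inr rfl, fun hb => by rw [hp, hb], fun _ => hp⟩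

lemma num_omask_congr {n : ℕ} {o o' : ℕ → Bool} (h : ∀ p, p < 2 * n → o p = o' p)
    (ω : ℕ → M.Γ) : num M n (omask M o ω) = num M n (omask M o' ω) := by
  unfold num
  apply Finset.sum_congr rfl
  intro p hp
  unfold omask
  rw [h p (Finset.mem_range.1 hp)]

end Vale.Agent.Lib.P338.WO
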