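import Mathlib
import Vale.Agent.Lib.P338.WO.Defs

namespace Vale.Agent.Lib.P338.WO

open Vale.Agent.Lib.P338 Vale.Agent.Lib.P338.OW

variable {M : Machine 2}

lemma own_spec (S : ℕ → Prop) [DecidablePred S] :
    ∀ (t : ℕ) (c c' : Cfg M) (ωR ωL : ℕ → M.Γ) (o : ℕ → Bool), run M t c = some c' →
      (∀ p, c.tape 1 p = if o p = true then ωR p else ωL p) →
      ∀ p, c'.tape 1 p = if sown M S t c o p = true then swrote M S t c ωR p
        else swrote M (fun j => ¬ S j) t c ωL p := by
  intro t
  induction t with
  | zero =>
    intro c c' ωR ωL o hrun hm
    simp only [run, Option.some.injEq] at hrun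
    subst hrun
    exact hm
  | succ t ih =>
    intro c c' ωR ωL o hrun hm
    simp only [run] at hrun
    cases hstep : step M c with
    | none =>
      rw [hstep] at hrun
      simp at hrun
    | some c1 =>
      rw [hstep] at hrun
      have hrun1 : run M t c1 = some c' := by simpa using hrun
      have e1 : swrote M S (t + 1) c ωR = swrote M S t c1
          (if S (c.head 0) then Function.update ωR (c.head 1) (c1.tape 1 (c.head 1)) else ωR) := by
        simp only [swrote, hstep]
      have e2 : swrote M (fun j => ¬ S j) (t + 1) c ωL = swrote M (fun j => ¬ S j) t c1
          (if ¬ S (c.head 0) then Function.update ωL (c.head 1) (c1.tape 1 (c.head 1))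
            else ωL) := by
        simp only [swrote, hstep]
      have e3 : sown M S (t + 1) c o = sown M S t c1
          (Function.update o (c.head 1) (decide (S (c.head 0)))) := by
        simp only [sown, hstep]
      rw [e1, e2, e3]
      unfold step at hstep
      obtain ⟨r, hr, hc1⟩ := Option.map_eq_some_iff.1 hstep
      have htape : c1.tape 1 = Function.update (c.tape 1) (c.head 1) (r.2 1).1 := by
        rw [← hc1]
      apply ih c1 c' _ _ _ hrun1
      intro p
      by_cases hp : p = c.head 1
      · subst hp
        by_cases hS : S (c.head 0)
        · simp [hS, Function.update_self]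
        · simp [hS, Function.update_self]
      · have h1 : c1.tape 1 p = c.tape 1 p := by
          rw [htape, Function.update_of_ne hp]
        have h2 : (if S (c.head 0) then
            Function.update ωR (c.head 1) (c1.tape 1 (c.head 1)) else ωR) p = ωR p := by
          split_ifs
          · rw [Function.update_of_ne hp]
          · rfl
        have h3 : (if ¬ S (c.head 0) then
            Function.update ωL (c.head 1) (c1.tape 1 (c.head 1)) else ωL) p = ωL p := by
          split_ifs
          · rfl
          · rw [Function.update_of_ne hp]
        rw [h1, h2, h3, Function.update_of_ne hp]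
        exact hm p

end Vale.Agent.Lib.P338.WO
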