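import Mathlib
import Vale.Agent.Lib.P338.WO.Defs

namespace Vale.Agent.Lib.P338.WO

lemma recon_eq (N : ℕ) (o : ℕ → Bool) : ∀ p, p ≤ N → o p = recon (o 0) (brk N o) p := by
  intro p
  induction p with
  | zero =>
    intro _
    simp [recon]
  | succ p ih =>
    intro hp
    have ih' := ih (by omega)
    unfold recon at ih' ⊢
    by_cases h : o p = o (p + 1)
    · have hset : (brk N o).filter (fun x => x < p + 1)
          = (brk N o).filter (fun x => x < p) := by
        ext x
        simp only [Finset.mem_filter]
        constructor
        · rintro ⟨hx, hlt⟩
          refine ⟨hx, ?_⟩
          have hne : x ≠ p := by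
            intro e
            rw [e] at hx
            exact (Finset.mem_filter.1 hx).2 h
          omega
        · rintro ⟨hx, hlt⟩
          exact ⟨hx, by omega⟩
      rw [hset, ← ih', h]
    · have hmem : p ∈ brk N o := Finset.mem_filter.2 ⟨Finset.mem_range.2 (by omega), h⟩
      have hset : (brk N o).filter (fun x => x < p + 1)
          = insert p ((brk N o).filter (fun x => x < p)) := by
        ext x
        simp only [Finset.mem_filter, Finset.mem_insert]
        constructor
        · rintro ⟨hx, hlt⟩
          by_cases hxp : x = p
          · exact Or.inl hxp
          · exact Or.inr ⟨hx, by omega⟩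
        · rintro (e | ⟨hx, hlt⟩)
          · rw [e]
            exact ⟨hmem, by omega⟩
          · exact ⟨hx, by omega⟩
      have hnot : p ∉ (brk N o).filter (fun x => x < p) := by
        intro hh
        have := (Finset.mem_filter.1 hh).2
        omega
      rw [hset, Finset.card_insert_of_notMem hnot]
      generalize ((brk N o).filter (fun x => x < p)).card = c at ih' ⊢
      have hodd : decide (Odd (c + 1)) = !decide (Odd c) := by
        by_cases hc : Odd c
        · have h1 : ¬ Odd (c + 1) := by
            rw [Nat.odd_add_one]
            exact not_not.2 hc
          simp [hc, h1]
        · have h1 : Odd (c + 1) := by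
            rw [Nat.odd_add_one]
            exact hc
          simp [hc, h1]
      rw [hodd]
      revert h ih'
      generalize o p = a
      generalize o (p + 1) = b
      generalize o 0 = z
      generalize decide (Odd c) = e
      cases a <;> cases b <;> cases z <;> cases e <;> simp

end Vale.Agent.Lib.P338.WO
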