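import Mathlib
import Vale.Agent.Lib.P338.WO.Defs
import Vale.Agent.Lib.P338.OW.SimStep

namespace Vale.Agent.Lib.P338.WO

open Vale.Agent.Lib.P338 Vale.Agent.Lib.P338.OW

variable {M : Machine 2}

lemma delta_eq (hWO : WriteOnly2 M) (c : Cfg M) :
    M.δ c.q (fun i => c.tape i (c.head i)) = M.δ c.q (rd M (c.tape 0 (c.head 0))) := by
  exact hWO.2.2 _ _ _ (by simp [rd])

lemma sstep_none' (hWO : WriteOnly2 M) (S : ℕ → Prop) [DecidablePred S] {c : Cfg M}
    (hS : S (c.head 0)) (h : step M c = none) (ω : ℕ → M.Γ) :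
    sstep M S c.q (c.head 0) (c.head 1) (mask M S (c.tape 0)) ω = none := by
  unfold step at h
  rw [delta_eq hWO c] at h
  unfold sstep
  rw [mask_apply_of S _ hS]
  rw [Option.map_eq_none_iff] at h ⊢
  exact h

lemma sstep_some' (hWO : WriteOnly2 M) (S : ℕ → Prop) [DecidablePred S] {c c' : Cfg M}
    (hS : S (c.head 0)) (h : step M c = some c') (ω : ℕ → M.Γ) :
    sstep M S c.q (c.head 0) (c.head 1) (mask M S (c.tape 0)) ω
      = some (sview M S c' (Function.update ω (c.head 1) (c'.tape 1 (c.head 1)))) := by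
  unfold step at h
  rw [delta_eq hWO c] at h
  unfold sstep
  rw [mask_apply_of S _ hS]
  rw [Option.map_eq_some_iff] at h
  obtain ⟨r, hr, rfl⟩ := h
  rw [hr]
  simp only [Option.map_some, sview, Function.update_self]
  rw [mask_update_of S _ hS]

end Vale.Agent.Lib.P338.WO
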