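import Mathlib
import Vale.Agent.Lib.P338.WO.Step
import Vale.Agent.Lib.P338.OW.SimStep
import Vale.Agent.Lib.P338.OW.SimSpec

namespace Vale.Agent.Lib.P338.WO

open Vale.Agent.Lib.P338 Vale.Agent.Lib.P338.OW

variable {M : Machine 2}

lemma srun_spec' (hWO : WriteOnly2 M) (S : ℕ → Prop) [DecidablePred S] (ent : ℕ)
    (hent : ∀ (h : ℕ) (mv : Move), ¬ S h → S (mv.apply h) → mv.apply h = ent) :
    ∀ (t : ℕ) (c c' : Cfg M) (ω : ℕ → M.Γ), run M t c = some c' → step M c' = none →
      ∀ f, t ≤ f →
        srun M S ent f (senters M S t c) (sview M S c ω) = sview M S c' (swrote M S t c ω) := by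
  intro t
  induction t with
  | zero =>
    intro c c' ω hrun hhalt f _
    simp only [run, Option.some.injEq] at hrun
    subst hrun
    simp only [senters, swrote]
    cases f with
    | zero => rw [srun]
    | succ f =>
      by_cases hS : S (c.head 0)
      · rw [sview_pos S c ω hS]
        exact srun_some_none S ent f [] _ _ _ _ _ (sstep_none' hWO S hS hhalt ω)
      · rw [sview_neg S c ω hS]
        exact srun_none_nil S ent f _ _
  | succ t ih =>
    intro c c' ω hrun hhalt f hfle
    simp only [run] at hrun
    obtain ⟨c1, hc1, hrun1⟩ := Option.bind_eq_some_iff.1 hrun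
    obtain ⟨f', rfl⟩ : ∃ f', f = f' + 1 := ⟨f - 1, by omega⟩
    have hf' : t ≤ f' := by omega
    have hsen : senters M S (t + 1) c =
        (if ¬ S (c.head 0) ∧ S (c1.head 0) then [(c1.q, c1.head 1)] else []) ++
          senters M S t c1 := by
      rw [senters, hc1]
    have hwr : swrote M S (t + 1) c ω = swrote M S t c1
        (if S (c.head 0) then Function.update ω (c.head 1) (c1.tape 1 (c.head 1)) else ω) := by
      rw [swrote, hc1]
    rw [hsen, hwr]
    by_cases hS : S (c.head 0)
    · rw [if_neg (fun h => h.1 hS), if_pos hS, List.nil_append, sview_pos S c ω hS,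
        srun_some_some S ent f' _ _ _ _ _ _ _ (sstep_some' hWO S hS hc1 ω)]
      exact ih c1 c' _ hrun1 hhalt f' hf'
    · rw [if_neg hS]
      have hmask := outside_step S hS hc1
      by_cases hS1 : S (c1.head 0)
      · rw [if_pos ⟨hS, hS1⟩, List.singleton_append, sview_neg S c ω hS, srun_none_cons]
        obtain ⟨mv, hmv⟩ := head0_step hc1
        have hent1 : c1.head 0 = ent := by
          rw [hmv]
          exact hent _ mv hS (hmv ▸ hS1)
        have := ih c1 c' ω hrun1 hhalt f' hf'
        rw [sview_pos S c1 ω hS1, hent1, hmask] at this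
        exact this
      · rw [if_neg (fun h => hS1 h.2), List.nil_append, sview_neg S c ω hS]
        have := ih c1 c' ω hrun1 hhalt (f' + 1) (by omega)
        rw [sview_neg S c1 ω hS1, hmask] at this
        exact this

end Vale.Agent.Lib.P338.WO
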