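import Mathlib
import Vale.Agent.Lib.P338.WO.Pos

namespace Vale.Agent.Lib.P338.WO

open Vale.Agent.Lib.P338 Vale.Agent.Lib.P338.OW

variable {M : Machine 2}

lemma time_step_spec {c c' : Cfg M} (h : step M c = some c') :
    ∃ r, M.δ c.q (fun i => c.tape i (c.head i)) = some r ∧
      c'.head 1 = (r.2 1).2.apply (c.head 1) ∧
      c'.tape 1 = Function.update (c.tape 1) (c.head 1) (r.2 1).1 := by
  unfold step at h
  obtain ⟨r, hr, rfl⟩ := Option.map_eq_some_iff.1 h
  exact ⟨r, hr, rfl, rfl⟩

/-- Cells at distance at least `t` to the right of the head are not written within `t` steps. -/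
lemma blank_beyond : ∀ (t : ℕ) (c c' : Cfg M), run M t c = some c' →
    ∀ p, c.head 1 + t ≤ p → c'.tape 1 p = c.tape 1 p := by
  intro t
  induction t with
  | zero =>
    intro c c' h p _
    simp only [run, Option.some.injEq] at h
    rw [← h]
  | succ t ih =>
    intro c c' h p hp
    simp only [run] at h
    obtain ⟨c1, hc1, h2⟩ := Option.bind_eq_some_iff.1 h
    have h3 := head1_step_le hc1
    obtain ⟨r, _, _, ht⟩ := time_step_spec hc1
    rw [ih c1 c' h2 p (by omega), ht]
    exact Function.update_of_ne (by omega) _ _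

lemma time_ge' (hWO : WriteOnly2 M) {n : ℕ} (hM : MultAt M n) (hn : 1 ≤ n) :
    2 * n ≤ worstTime M n := by
  obtain ⟨t, c, hH, hout⟩ := hM (fun _ => false) (fun _ => false)
  have h0 : (init M (fun _ : Fin n => false) (fun _ : Fin n => false)).head 1 = 0 := rfl
  have hge : 2 * n ≤ t := by
    by_contra hlt
    have h1 := hout (2 * n - 1) (by omega)
    have hb := blank_beyond t _ c hH.1 (2 * n - 1) (by rw [h0]; omega)
    have hblank : (init M (fun _ : Fin n => false) (fun _ : Fin n => false)).tape 1 (2 * n - 1)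
        = M.sym Sym.blank := by
      simp [init, hWO.1]
    rw [hWO.2.1, hb, hblank] at h1
    have h2 := M.sym_inj h1
    cases hb' : binDigit (2 * n) (val (fun _ : Fin n => false) * val (fun _ : Fin n => false))
      (2 * n - 1) <;> rw [hb'] at h2 <;> simp [bitSym] at h2
  calc 2 * n ≤ t := hge
    _ = haltTime M (fun _ : Fin n => false) (fun _ : Fin n => false) := (haltTime_eq M hH).symm
    _ ≤ worstTime M n := haltTime_le_worstTime M _ _

end Vale.Agent.Lib.P338.WO
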