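import Mathlib
import Vale.Agent.Lib.P338.WO.Spec
import Vale.Agent.Lib.P338.WO.Own
import Vale.Agent.Lib.P338.WO.Recon
import Vale.Agent.Lib.P338.WO.NumOwn
import Vale.Agent.Lib.P338.OW.Decomp
import Vale.Agent.Lib.P338.WO.Time

namespace Vale.Agent.Lib.P338.WO

open Vale.Agent.Lib.P338 Vale.Agent.Lib.P338.OW

variable {M : Machine 2}

lemma decomp' (hWO : WriteOnly2 M) {n m : ℕ} (hM : MultAt M n) (hn : 1 ≤ n) (hm : m ≤ n) :
    ∃ (Rf Lf : ℕ → (Fin m → Bool) → List (M.Q × ℕ) → Bool → Finset ℕ → ℕ),
      ∀ β, m + 1 ≤ β → β ≤ 2 * n - m + 1 → ∀ a b : Fin m → Bool,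
        val a * 2 ^ (n - m) * val b
          = Lf β a (EL M n m β a b) (OWN M n m β a b 0) (brk (worstTime M n + 1) (OWN M n m β a b))
            + Rf β b (ER M n m β a b) (OWN M n m β a b 0) (brk (worstTime M n + 1) (OWN M n m β a b)) := by
  refine ⟨fun β b l b0 B => num M n (omask M (recon b0 B)
      (srun M (fun j => β ≤ j) β (worstTime M n) l
        (sview M (fun j => β ≤ j) (ini M n m (fun _ => false) b) (blankOut M))).2.2),
    fun β a l b0 B => num M n (omask M (fun p => !(recon b0 B p))
      (srun M (fun j => ¬ β ≤ j) (β - 1) (worstTime M n) l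
        (sview M (fun j => ¬ β ≤ j) (ini M n m a (fun _ => false)) (blankOut M))).2.2), ?_⟩
  intro β h1 h2 a b
  obtain ⟨t, c', hH, hout⟩ := hM (xOf n m a) (yOf n m b)
  have htim : tim M n m a b = t := haltTime_eq M hH
  have htT : t ≤ worstTime M n := htim ▸ haltTime_le_worstTime M (xOf n m a) (yOf n m b)
  have hrun : run M t (ini M n m a b) = some c' := hH.1
  have hR := srun_spec' hWO (fun j => β ≤ j) β
    (by
      intro h mv hh1 hh2
      have := move_apply_le mv h
      omega)
    t (ini M n m a b) c' (blankOut M) hrun hH.2 (worstTime M n) htT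
  have hL := srun_spec' hWO (fun j => ¬ β ≤ j) (β - 1)
    (by
      intro h mv hh1 hh2
      have := move_apply_le mv h
      omega)
    t (ini M n m a b) c' (blankOut M) hrun hH.2 (worstTime M n) htT
  have h0 : ∀ p, (ini M n m a b).tape 1 p = M.sym Sym.blank := by
    intro p
    simp [ini, init, hWO.1]
  have hown := own_spec (fun j => β ≤ j) t (ini M n m a b) c' (blankOut M) (blankOut M)
    (fun _ => false) hrun
    (by
      intro p
      simp [blankOut, h0])
  have hz : val (xOf n m a) * val (yOf n m b) < 2 ^ (2 * n) := by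
    have hx := val_lt (xOf n m a)
    have hy := val_lt (yOf n m b)
    calc val (xOf n m a) * val (yOf n m b) < 2 ^ n * 2 ^ n :=
          Nat.mul_lt_mul'' hx hy
      _ = 2 ^ (2 * n) := by rw [← pow_add]; congr 1; omega
  have hout' : ∀ i, i < 2 * n → c'.tape 1 i
      = M.sym (bitSym (binDigit (2 * n) (val (xOf n m a) * val (yOf n m b)) i)) := by
    intro i hi
    have := hout i hi
    rwa [hWO.2.1] at this
  have hnum := num_own hz hown hout'
  rw [val_xOf hm, val_yOf hm] at hnum
  have hT2 : 2 * n ≤ worstTime M n := time_ge' hWO hM hn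
  have hOWN : OWN M n m β a b = sown M (fun j => β ≤ j) t (ini M n m a b) (fun _ => false) := by
    simp only [OWN, htim]
  have hrec : ∀ p, p < 2 * n → sown M (fun j => β ≤ j) t (ini M n m a b) (fun _ => false) p
      = recon (OWN M n m β a b 0) (brk (worstTime M n + 1) (OWN M n m β a b)) p := by
    intro p hp
    rw [← hOWN]
    exact recon_eq (worstTime M n + 1) (OWN M n m β a b) p (by omega)
  rw [hnum, add_comm]
  simp only [ER, EL, htim]
  rw [sview_R_indep hm (by omega) (fun _ => false) a b, hR,
    sview_L_indep hm h2 a (fun _ => false) b, hL]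
  simp only [sview]
  rw [num_omask_congr hrec, num_omask_congr (fun p hp => by rw [hrec p hp])]

end Vale.Agent.Lib.P338.WO
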