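import Mathlib

namespace Vale.Agent.Lib.P338.WO

/-- There are at most `(N + 1) ^ r` subsets of `range N` with at most `r` elements. -/
lemma card_small_subsets (N r : ℕ) :
    ((Finset.range N).powerset.filter fun B => B.card ≤ r).card ≤ (N + 1) ^ r := by
  induction r with
  | zero =>
    have h : ((Finset.range N).powerset.filter fun B => B.card ≤ 0) ⊆ {∅} := by
      intro B hB
      rw [Finset.mem_filter] at hB
      rw [Finset.mem_singleton]
      exact Finset.card_eq_zero.1 (Nat.le_zero.1 hB.2)
    simpa using Finset.card_le_card h
  | succ r ih =>
    have hsub : ((Finset.range N).powerset.filter fun B => B.card ≤ r + 1) ⊆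
        (((Finset.range N).powerset.filter fun B => B.card ≤ r) ×ˢ Finset.range (N + 1)).image
          (fun p => if p.2 = N then p.1 else insert p.2 p.1) := by
      intro B hB
      rw [Finset.mem_filter, Finset.mem_powerset] at hB
      rw [Finset.mem_image]
      by_cases hc : B.card ≤ r
      · refine ⟨(B, N), ?_, by simp⟩
        simp [Finset.mem_product, Finset.mem_filter, hB.1, hc]
      · have hne : B.Nonempty := by
          rw [← Finset.card_pos]
          omega
        obtain ⟨x, hx⟩ := hne
        have hxN : x < N := Finset.mem_range.1 (hB.1 hx)
        refine ⟨(B.erase x, x), ?_, ?_⟩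
        · rw [Finset.mem_product, Finset.mem_filter, Finset.mem_powerset]
          refine ⟨⟨(Finset.erase_subset _ _).trans hB.1, ?_⟩, Finset.mem_range.2 (by omega)⟩
          rw [Finset.card_erase_of_mem hx]
          omega
        · have hne' : x ≠ N := by omega
          simp [hne', Finset.insert_erase hx]
    calc ((Finset.range N).powerset.filter fun B => B.card ≤ r + 1).card
        ≤ _ := Finset.card_le_card hsub
      _ ≤ _ := Finset.card_image_le
      _ = ((Finset.range N).powerset.filter fun B => B.card ≤ r).card * (N + 1) := by
          rw [Finset.card_product, Finset.card_range]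
      _ ≤ (N + 1) ^ r * (N + 1) := Nat.mul_le_mul_right _ ih
      _ = (N + 1) ^ (r + 1) := (pow_succ _ _).symm

end Vale.Agent.Lib.P338.WO
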