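import Mathlib
import Vale.Agent.Lib.P338.WO.NoC4
import Vale.Agent.Lib.P338.WO.Brk
import Vale.Agent.Lib.P338.WO.PowCount
import Vale.Agent.Lib.P338.OW.Short
import Vale.Agent.Lib.P338.OW.CountAbs
import Vale.Agent.Lib.P338.OW.Enc

namespace Vale.Agent.Lib.P338.WO

open Vale.Agent.Lib.P338 Vale.Agent.Lib.P338.OW

variable {M : Machine 2}

lemma count_main' (hWO : WriteOnly2 M) {n m : ℕ} (hM : MultAt M n) (hn : 1 ≤ n)
    (hm : 2 * m ≤ n) :
    2 ^ m ≤ 2 * ((2 * n + 1) *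
      ((Nat.card M.Q * (worstTime M n + 1) + 1) ^ (worstTime M n / (n + 1))) ^ 2 *
      (2 * (worstTime M n + 2) ^ (2 + 2 * (worstTime M n / (n + 1))))) ^ 2 := by
  classical
  have : Finite M.Q := M.finQ
  have : Fintype M.Q := Fintype.ofFinite M.Q
  set T := worstTime M n with hT
  set l := T / (n + 1) with hl
  choose β hβ1 hβ2 using fun (a b : Fin m → Bool) => exists_short (M := M) hm a b
  let key : (Fin m → Bool) × (Fin m → Bool) →
      ℕ × (Fin l → Option (M.Q × Fin (T + 1))) × (Fin l → Option (M.Q × Fin (T + 1))) ×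
        Bool × Finset ℕ :=
    fun p => (β p.1 p.2, enc T l (ER M n m (β p.1 p.2) p.1 p.2),
      enc T l (EL M n m (β p.1 p.2) p.1 p.2), OWN M n m (β p.1 p.2) p.1 p.2 0,
      brk (T + 1) (OWN M n m (β p.1 p.2) p.1 p.2))
  let K : Finset (ℕ × (Fin l → Option (M.Q × Fin (T + 1))) ×
      (Fin l → Option (M.Q × Fin (T + 1))) × Bool × Finset ℕ) :=
    Finset.Icc (m + 1) (2 * n - m + 1) ×ˢ (Finset.univ ×ˢ (Finset.univ ×ˢ (Finset.univ ×ˢ
      ((Finset.range (T + 1)).powerset.filter fun B => B.card ≤ 2 + 2 * l))))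
  have hK : ∀ p, key p ∈ K := by
    intro p
    simp only [K, key, Finset.mem_product, Finset.mem_univ, true_and, Finset.mem_filter,
      Finset.mem_powerset]
    refine ⟨hβ1 p.1 p.2, Finset.filter_subset _ _, ?_⟩
    have h1 := brk_OWN_le (M := M) n m (β p.1 p.2) p.1 p.2
    have h2 : (ER M n m (β p.1 p.2) p.1 p.2).length + (EL M n m (β p.1 p.2) p.1 p.2).length ≤ l :=
      hβ2 p.1 p.2
    calc _ ≤ 2 + 2 * ((ER M n m (β p.1 p.2) p.1 p.2).length +
          (EL M n m (β p.1 p.2) p.1 p.2).length) := h1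
      _ ≤ 2 + 2 * l := by omega
  have hrec : ∀ a b a' b', key (a, b) = key (a', b') →
      β a' b' = β a b ∧ ER M n m (β a b) a' b' = ER M n m (β a b) a b ∧
        EL M n m (β a b) a' b' = EL M n m (β a b) a b ∧
        OWN M n m (β a b) a' b' 0 = OWN M n m (β a b) a b 0 ∧
        brk (T + 1) (OWN M n m (β a b) a' b') = brk (T + 1) (OWN M n m (β a b) a b) := by
    intro a b a' b' h
    simp only [key, Prod.mk.injEq] at h
    obtain ⟨h1, h2, h3, h4, h5⟩ := h
    rw [← h1] at h2 h3 h4 h5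
    have e1 : (ER M n m (β a b) a b).length + (EL M n m (β a b) a b).length ≤ l := hβ2 a b
    have e2 : (ER M n m (β a' b') a' b').length + (EL M n m (β a' b') a' b').length ≤ l :=
      hβ2 a' b'
    rw [← h1] at e2
    refine ⟨h1.symm, ?_, ?_, h4.symm, h5.symm⟩
    · exact (enc_inj (by omega) (by omega) (ER_pos_le' a b) (ER_pos_le' a' b') h2).symm
    · exact (enc_inj (by omega) (by omega) (EL_pos_le' a b) (EL_pos_le' a' b') h3).symm
  have hC4 : ∀ a a' b b', key (a, b) = key (a, b') → key (a, b) = key (a', b) →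
      key (a, b) = key (a', b') → a = a' ∨ b = b' := by
    intro a a' b b' h1 h2 h3
    obtain ⟨_, r1, l1, o1, k1⟩ := hrec a b a b' h1
    obtain ⟨_, r2, l2, o2, k2⟩ := hrec a b a' b h2
    obtain ⟨_, r3, l3, o3, k3⟩ := hrec a b a' b' h3
    have hb := Finset.mem_Icc.1 (hβ1 a b)
    exact no_c4' hWO hM hn (by omega) hb.1 hb.2 ⟨rfl, rfl, rfl, rfl⟩ ⟨r1, l1, o1, k1⟩
      ⟨r2, l2, o2, k2⟩ ⟨r3, l3, o3, k3⟩
  have h := count_abstract K key hK hC4
  have hcard : Fintype.card (Fin m → Bool) = 2 ^ m := by simp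
  have hcf : Fintype.card (Fin l → Option (M.Q × Fin (T + 1)))
      = (Nat.card M.Q * (T + 1) + 1) ^ l := by
    simp [Nat.card_eq_fintype_card]
  have hsm := card_small_subsets (T + 1) (2 + 2 * l)
  have hKc : K.card ≤ (2 * n + 1) * ((Nat.card M.Q * (T + 1) + 1) ^ l) ^ 2 *
      (2 * (T + 2) ^ (2 + 2 * l)) := by
    simp only [K, Finset.card_product, Finset.card_univ, hcf, Nat.card_Icc, Fintype.card_bool]
    have e : (2 * n + 1) * ((Nat.card M.Q * (T + 1) + 1) ^ l) ^ 2 * (2 * (T + 2) ^ (2 + 2 * l))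
        = (2 * n + 1) * ((Nat.card M.Q * (T + 1) + 1) ^ l * ((Nat.card M.Q * (T + 1) + 1) ^ l *
          (2 * (T + 2) ^ (2 + 2 * l)))) := by ring
    rw [e]
    apply Nat.mul_le_mul (by omega)
    apply Nat.mul_le_mul_left
    apply Nat.mul_le_mul_left
    apply Nat.mul_le_mul_left
    exact hsm
  rw [hcard] at h
  calc 2 ^ m ≤ 2 * K.card ^ 2 := h
    _ ≤ 2 * ((2 * n + 1) * ((Nat.card M.Q * (T + 1) + 1) ^ l) ^ 2 *
        (2 * (T + 2) ^ (2 + 2 * l))) ^ 2 := by gcongr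

end Vale.Agent.Lib.P338.WO
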