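import Mathlib

namespace Vale.Agent.Lib.P338.WO

lemma key_arith' {n T q Λ : ℕ} (hn : 1 ≤ n) (hT : 2 * n ≤ T) (hq : 1 ≤ q)
    (hΛ : q * (T + 1) + 1 ≤ 2 ^ Λ)
    (h : 2 ^ (n / 2) ≤ 2 * ((2 * n + 1) * ((q * (T + 1) + 1) ^ (T / (n + 1))) ^ 2 *
      (2 * (T + 2) ^ (2 + 2 * (T / (n + 1))))) ^ 2) :
    (n - 1) * (n + 1) ≤ 34 * Λ * T := by
  obtain ⟨l, hl⟩ : ∃ l, l = T / (n + 1) := ⟨_, rfl⟩
  rw [← hl] at h
  have hl1 : 1 ≤ l := by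
    rw [hl]; exact (Nat.one_le_div_iff (by omega)).2 (by omega)
  have hlT : l * (n + 1) ≤ T := by rw [hl]; exact Nat.div_mul_le_self T (n + 1)
  have hqT : T + 1 ≤ q * (T + 1) := Nat.le_mul_of_pos_left _ hq
  have hΛ1 : 1 ≤ Λ := by
    by_contra hcon
    have h0 : Λ = 0 := by omega
    subst h0
    simp at hΛ
    omega
  have h2n : 2 * n + 1 ≤ 2 ^ Λ := by omega
  have hT2 : T + 2 ≤ 2 ^ Λ := by omega
  have hR : 2 * ((2 * n + 1) * ((q * (T + 1) + 1) ^ l) ^ 2 *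
      (2 * (T + 2) ^ (2 + 2 * l))) ^ 2 ≤ 2 ^ (3 + 6 * Λ + 8 * Λ * l) := by
    calc 2 * ((2 * n + 1) * ((q * (T + 1) + 1) ^ l) ^ 2 *
      (2 * (T + 2) ^ (2 + 2 * l))) ^ 2
        ≤ 2 * ((2 ^ Λ) * ((2 ^ Λ) ^ l) ^ 2 * (2 * (2 ^ Λ) ^ (2 + 2 * l))) ^ 2 := by gcongr
      _ = 2 ^ (3 + 6 * Λ + 8 * Λ * l) := by
        have e : (2 : ℕ) ^ (3 + 6 * Λ + 8 * Λ * l) = 2 ^ 3 * (2 ^ Λ) ^ (6 + 8 * l) := by
          rw [← pow_mul, ← pow_add]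
          congr 1
          ring
        rw [e]
        generalize (2 : ℕ) ^ Λ = X
        ring
  have hexp : n / 2 ≤ 3 + 6 * Λ + 8 * Λ * l :=
    (Nat.pow_le_pow_iff_right (by norm_num)).1 (h.trans hR)
  have hΛl : 1 ≤ Λ * l := Nat.mul_pos hΛ1 hl1
  have hΛl2 : Λ ≤ Λ * l := Nat.le_mul_of_pos_right _ hl1
  have h7 : n / 2 ≤ 17 * (Λ * l) := by nlinarith
  have hn2 : n - 1 ≤ 2 * (n / 2) := by omega
  calc (n - 1) * (n + 1) ≤ (2 * (n / 2)) * (n + 1) := Nat.mul_le_mul_right _ hn2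
    _ ≤ (2 * (17 * (Λ * l))) * (n + 1) := by gcongr
    _ = 34 * Λ * (l * (n + 1)) := by ring
    _ ≤ 34 * Λ * T := by gcongr

end Vale.Agent.Lib.P338.WO
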