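import Mathlib
import Vale.Agent.Lib.P338.WO.Defs
import Vale.Agent.Lib.P338.TS.Transfer

namespace Vale.Agent.Lib.P338.WO

open Vale.Agent.Lib.P338 Vale.Agent.Lib.P338.OW Vale.Agent.Lib.P338.TS

variable {k : ℕ} (M : Machine (k + 2)) (s : ℕ)

lemma writeOnly_abs (hWO : WriteOnlyK M) : WriteOnly2 (prodM M s) := by
  refine ⟨rfl, rfl, ?_⟩
  intro (P : PQ M s) (a : Fin 2 → M.Γ) (a2 : Fin 2 → M.Γ) h
  have hrd : M.δ P.1 (rdAll M s a P.2.1 P.2.2) = M.δ P.1 (rdAll M s a2 P.2.1 P.2.2) := by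
    apply hWO.2.2
    intro i hi
    refine Fin.cases ?_ (fun i' => ?_) i hi
    · intro _
      show a 0 = a2 0
      exact h
    · refine Fin.cases ?_ (fun j => ?_) i'
      · intro hi
        exact absurd rfl hi
      · intro _
        rfl
  show (M.δ P.1 (rdAll M s a P.2.1 P.2.2)).map _ = (M.δ P.1 (rdAll M s a2 P.2.1 P.2.2)).map _
  rw [hrd]

lemma multAt_abs' (hWO : WriteOnlyK M) (hM : Multiplies M) {n : ℕ} (hn : 1 ≤ n)
    (hS : SpaceBound M n (s + 1)) : MultAt (prodM M s) n := by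
  intro x y
  obtain ⟨t, c, hH, hout⟩ := hM n hn x y
  refine ⟨t, absC M s c, halts_abs M s hWO.1 hS hH, ?_⟩
  intro i hi
  have h1 := hout i hi
  rw [hWO.2.1] at h1
  show (if (1 : Fin 2) = 0 then c.tape 0 else c.tape 1) i = M.sym _
  rw [if_neg (by decide)]
  exact h1

end Vale.Agent.Lib.P338.WO
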