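import Mathlib
import Vale.Agent.Lib.P338.WO.Count
import Vale.Agent.Lib.P338.WO.Time
import Vale.Agent.Lib.P338.WO.KeyArith
import Vale.Agent.Lib.P338.WO.Prod
import Vale.Agent.Lib.P338.WO.ArithT
import Vale.Agent.Lib.P338.TS.Card
import Vale.Agent.Lib.P338.TS.Arith
import Vale.Agent.Lib.P338.TS.Arith3

namespace Vale.Agent.Lib.P338.WO

open Vale.Agent.Lib.P338 Vale.Agent.Lib.P338.OW Vale.Agent.Lib.P338.TS

theorem wo_at (M : Machine 2) (hWO : WriteOnly2 M) {n : ℕ} (hn : 1 ≤ n) (hM : MultAt M n) (Λ : ℕ)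
    (hΛ : Nat.card M.Q * (worstTime M n + 1) + 1 ≤ 2 ^ Λ) :
    (n - 1) * (n + 1) ≤ 34 * Λ * worstTime M n := by
  have hq : 1 ≤ Nat.card M.Q := by
    have := M.finQ
    have : Nonempty M.Q := ⟨M.start⟩
    exact Nat.succ_le_of_lt Nat.card_pos
  exact key_arith' hn (time_ge' hWO hM hn) hq hΛ (count_main' hWO hM hn (by omega))

theorem final (k : ℕ) (M : Machine (k + 2)) (hWO : WriteOnlyK M) (hM : Multiplies M) :
    (∀ n S Λ : ℕ, 1 ≤ n → 1 ≤ S → SpaceBound M n S →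
      Nat.card M.Q * (S ^ k * (Nat.card M.Γ ^ S) ^ k) * (worstTime M n + 1) + 1 ≤ 2 ^ Λ →
      (n - 1) * (n + 1) ≤ 34 * Λ * worstTime M n) ∧
    (∃ c : ℝ, 0 < c ∧ ∀ n S : ℕ, 2 ≤ n → 1 ≤ S → SpaceBound M n S →
      c * (n : ℝ) ^ 2 ≤ (worstTime M n : ℝ) * ((S : ℝ) + Real.log (worstTime M n))) ∧
    (∀ K : ℝ, ∃ c : ℝ, 0 < c ∧ ∀ n S : ℕ, 2 ≤ n → 1 ≤ S → SpaceBound M n S →
      (S : ℝ) ≤ K * ((n : ℝ) / Real.log n) →
      c * ((n : ℝ) * Real.log n) ≤ (worstTime M n : ℝ)) := by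
  have hq : 1 ≤ Nat.card M.Q := by
    have := M.finQ
    have : Nonempty M.Q := ⟨M.start⟩
    exact Nat.succ_le_of_lt Nat.card_pos
  have hg : 1 ≤ Nat.card M.Γ := by
    have := M.finΓ
    have : Nonempty M.Γ := ⟨M.sym Sym.blank⟩
    exact Nat.succ_le_of_lt Nat.card_pos
  have h1 : ∀ n S Λ : ℕ, 1 ≤ n → 1 ≤ S → SpaceBound M n S →
      Nat.card M.Q * (S ^ k * (Nat.card M.Γ ^ S) ^ k) * (worstTime M n + 1) + 1 ≤ 2 ^ Λ →
      (n - 1) * (n + 1) ≤ 34 * Λ * worstTime M n := by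
    intro n S Λ hn hS hSB hΛ
    obtain ⟨s, rfl⟩ : ∃ s, S = s + 1 := ⟨S - 1, by omega⟩
    have h := wo_at (prodM M s) (writeOnly_abs M s hWO) hn (multAt_abs' M s hWO hM hn hSB) Λ
    rw [worstTime_abs M s hWO.1 hM hn hSB, card_prodM] at h
    exact h hΛ
  have hT : ∀ n S : ℕ, 1 ≤ n → 1 ≤ S → SpaceBound M n S → 2 * n ≤ worstTime M n := by
    intro n S hn hS hSB
    obtain ⟨s, rfl⟩ : ∃ s, S = s + 1 := ⟨S - 1, by omega⟩
    have h := time_ge' (writeOnly_abs M s hWO) (multAt_abs' M s hWO hM hn hSB) hn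
    rwa [worstTime_abs M s hWO.1 hM hn hSB] at h
  obtain ⟨c, hc, h2⟩ := ts_arith (Nat.card M.Q) (Nat.card M.Γ) k hq hg
  have h2' : ∀ n S : ℕ, 2 ≤ n → 1 ≤ S → SpaceBound M n S →
      c / 7 * (n : ℝ) ^ 2 ≤ (worstTime M n : ℝ) * ((S : ℝ) + Real.log (worstTime M n)) := by
    intro n S hn hS hSB
    have hTn := hT n S (by omega) hS hSB
    apply three_T c hc n S (worstTime M n) hS (by omega)
    apply h2 n S (3 * worstTime M n) hn hS (by omega)
    intro Λ hΛ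
    have h3 : Nat.card M.Q * (S ^ k * (Nat.card M.Γ ^ S) ^ k) * (worstTime M n + 1) + 1 ≤ 2 ^ Λ := by
      refine le_trans ?_ hΛ
      apply Nat.add_le_add_right
      apply Nat.mul_le_mul_left
      omega
    have h4 := h1 n S Λ (by omega) hS hSB h3
    calc (n - 1) * (n + 1) ≤ 34 * Λ * worstTime M n := h4
      _ ≤ 14 * Λ * (3 * worstTime M n) := by
          have : 34 * Λ * worstTime M n ≤ 42 * Λ * worstTime M n := by
            apply Nat.mul_le_mul_right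
            apply Nat.mul_le_mul_right
            norm_num
          calc 34 * Λ * worstTime M n ≤ 42 * Λ * worstTime M n := this
            _ = 14 * Λ * (3 * worstTime M n) := by ring
  refine ⟨h1, ⟨c / 7, by positivity, h2'⟩, ?_⟩
  intro K
  obtain ⟨c', hc', h3⟩ := ts_arith3 (c / 7) (by positivity) K
  exact ⟨c', hc', fun n S hn hS hSB hK => h3 n S (worstTime M n) hn hS (h2' n S hn hS hSB) hK⟩

end Vale.Agent.Lib.P338.WO
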